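import Crest.Agent.X261.Top.Defs
import Crest.Agent.R273.Wdg_578
import Crest.Agent.R281.Kd5_22
import Crest.Agent.X261.Loc.An
import Crest.Agent.X261.Frb.Core
import Crest.Agent.R275.OmTot_75

-- ▼ part X261/Frb/Alg
section

/-!
# X261/Frb/Alg (helper54): kernels of decomposable forms in the Fock language
-/

set_option autoImplicit false

namespace Crest.Agent.X261.Frb.Alg

open Finset Matrix
open Crest.Agent.R273.Fock_243 Crest.Agent.R275.Kos798
open Crest.Agent.X261.Top (wdg)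

variable {p r : ℕ}

/-- the first `p` indices -/
def T0 (p r : ℕ) : FI (p + r) := Finset.univ.map (Fin.castAddEmb r)

theorem card_T0 : (T0 p r).card = p := by simp [T0]

theorem mem_T0 {j : Fin (p + r)} : j ∈ T0 p r ↔ ∃ k : Fin p, Fin.castAdd r k = j := by
  simp [T0]

theorem emb_T0 (k : Fin p) : (T0 p r).orderEmbOfFin card_T0 k = Fin.castAdd r k := by
  have := Finset.orderEmbOfFin_unique (s := T0 p r) card_T0 (f := fun k => Fin.castAdd r k)
    (fun k => mem_T0.2 ⟨k, rfl⟩) (Fin.strictMono_castAdd r)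
  exact (congrFun this k).symm

/-- the matrix with columns `β`, `γ` -/
def cols (β : Fin p → Fin (p + r) → ℂ) (γ : Fin r → Fin (p + r) → ℂ) :
    Matrix (Fin (p + r)) (Fin (p + r)) ℂ := fun a j => Fin.append (fun k => β k a) (fun k => γ k a) j

theorem wdg_eq (β : Fin p → Fin (p + r) → ℂ) (γ : Fin r → Fin (p + r) → ℂ) :
    wdg β = Gam (cols β γ) *ᵥ Pi.single (T0 p r) 1 := by
  ext S
  rw [Matrix.mulVec_single_one]
  change wdg β S = Gam (cols β γ) S (T0 p r)
  by_cases h : S.card = p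
  · rw [wdg, dif_pos h, Gam_eq _ h card_T0, ← Matrix.det_transpose]
    congr 1
    ext l k
    simp [cols, emb_T0]
  · rw [wdg, dif_neg h, Gam_of_ne _ (by rw [card_T0]; exact h)]

theorem iW_apply {n : ℕ} (v : Fin n → ℂ) (f : FI n → ℂ) (T : FI n) :
    (iW v *ᵥ f) T = ∑ j ∈ Tᶜ, sgn ℂ j T * v j * f (insert j T) := by
  rw [← Crest.Agent.R273.Wdg_578.ii_apply, Crest.Agent.R273.Wdg_578.ii_eq]; rfl

theorem eW_apply {n : ℕ} (v : Fin n → ℂ) (f : FI n → ℂ) (T : FI n) :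
    (eW v *ᵥ f) T = ∑ j ∈ T, sgn ℂ j T * v j * f (T.erase j) := by
  rw [← Crest.Agent.R273.Wdg_578.ee_apply, Crest.Agent.R273.Wdg_578.ee_eq]; rfl

theorem sgn_ne {n : ℕ} (j : Fin n) (T : FI n) : sgn ℂ j T ≠ 0 :=
  left_ne_zero_of_mul (by rw [sgn_mul_self]; exact one_ne_zero)

theorem tr_cols_left (β : Fin p → Fin (p + r) → ℂ) (γ : Fin r → Fin (p + r) → ℂ)
    (v : Fin (p + r) → ℂ) (k : Fin p) : ((cols β γ)ᵀ *ᵥ v) (Fin.castAdd r k) = β k ⬝ᵥ v := by
  simp [cols, Matrix.mulVec, dotProduct]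

theorem tr_cols_right (β : Fin p → Fin (p + r) → ℂ) (γ : Fin r → Fin (p + r) → ℂ)
    (v : Fin (p + r) → ℂ) (k : Fin r) : ((cols β γ)ᵀ *ᵥ v) (Fin.natAdd p k) = γ k ⬝ᵥ v := by
  simp [cols, Matrix.mulVec, dotProduct]

/-- vectors killed by all `β k` contract `β_1 ∧ … ∧ β_p` to zero -/
theorem iW_wdg {n : ℕ} (hn : p + r = n) (β : Fin p → Fin n → ℂ) {v : Fin n → ℂ}
    (h : ∀ k, β k ⬝ᵥ v = 0) : iW v *ᵥ wdg β = 0 := by
  subst hn
  have h1 : (cols β 0)ᵀ *ᵥ v = 0 := by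
    ext j
    refine Fin.addCases (fun k => ?_) (fun k => ?_) j
    · rw [tr_cols_left, h]; rfl
    · rw [tr_cols_right]; simp
  rw [wdg_eq β 0, Matrix.mulVec_mulVec, iW_Gam, h1, iW_zero, mul_zero, Matrix.zero_mulVec]

theorem eW_wdg {n : ℕ} (hn : p + r = n) (β : Fin p → Fin n → ℂ) (k : Fin p) :
    eW (β k) *ᵥ wdg β = 0 := by
  subst hn
  have h1 : β k = fun a => cols β 0 a (Fin.castAdd r k) := by
    ext a; simp [cols]
  have h2 : eW (ep (Fin.castAdd r k) : Fin (p + r) → ℂ) *ᵥ Pi.single (T0 p r) 1 = 0 := by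
    ext T
    rw [eW_apply]
    refine Finset.sum_eq_zero fun j _ => ?_
    by_cases hj : j = Fin.castAdd r k
    · subst hj
      have : T.erase (Fin.castAdd r k) ≠ T0 p r := fun h =>
        Finset.notMem_erase (Fin.castAdd r k) T (h ▸ mem_T0.2 ⟨k, rfl⟩)
      simp [this]
    · simp [hj]
  rw [wdg_eq β 0, Matrix.mulVec_mulVec, h1, ← Gam_eW_ep, ← Matrix.mulVec_mulVec, h2,
    Matrix.mulVec_zero]

theorem dot_eq_zero {n : ℕ} {α v : Fin n → ℂ} {e : FI n → ℂ} (he : e ≠ 0) (h1 : eW α *ᵥ e = 0)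
    (h2 : iW v *ᵥ e = 0) : α ⬝ᵥ v = 0 := by
  have h3 := congrArg (fun m => m *ᵥ e) (iW_eW v α)
  simp only [Matrix.add_mulVec, ← Matrix.mulVec_mulVec, h1, h2, Matrix.mulVec_zero, add_zero,
    Matrix.smul_mulVec, Matrix.one_mulVec] at h3
  exact (smul_eq_zero.1 h3.symm).resolve_right he

/-- the kernel of a nonzero decomposable form -/
theorem iW_wdg_iff {n : ℕ} (hn : p + r = n) {β : Fin p → Fin n → ℂ} (h0 : wdg β ≠ 0)
    (v : Fin n → ℂ) : iW v *ᵥ wdg β = 0 ↔ ∀ k, β k ⬝ᵥ v = 0 :=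
  ⟨fun h k => dot_eq_zero h0 (eW_wdg hn β k) h, iW_wdg hn β⟩

theorem gam_deg {n : ℕ} (A : Matrix (Fin n) (Fin n) ℂ) {e : FI n → ℂ}
    (he : ∀ S, S.card ≠ p → e S = 0) (S : FI n) (hS : S.card ≠ p) : (Gam A *ᵥ e) S = 0 := by
  rw [Matrix.mulVec, dotProduct]
  refine Finset.sum_eq_zero fun T _ => ?_
  by_cases hT : T.card = p
  · rw [Gam_of_ne _ (by rw [hT]; exact hS), zero_mul]
  · rw [he T hT, mul_zero]

theorem isUnit_cols {β : Fin p → Fin (p + r) → ℂ} {γ : Fin r → Fin (p + r) → ℂ}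
    (hinj : ∀ v, (∀ k, β k ⬝ᵥ v = 0) → (∀ k, γ k ⬝ᵥ v = 0) → v = 0) : IsUnit (cols β γ) := by
  rw [← Matrix.isUnit_transpose, ← Matrix.mulVec_injective_iff_isUnit]
  intro v w hvw
  rw [← sub_eq_zero]
  have h1 : (cols β γ)ᵀ *ᵥ (v - w) = 0 := by
    rw [Matrix.mulVec_sub, sub_eq_zero]; exact hvw
  refine hinj _ (fun k => ?_) fun k => ?_
  · rw [← tr_cols_left β γ, h1]; rfl
  · rw [← tr_cols_right β γ, h1]; rfl

theorem wdg_ne {n : ℕ} (hn : p + r = n) {β : Fin p → Fin n → ℂ} {γ : Fin r → Fin n → ℂ}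
    (hinj : ∀ v, (∀ k, β k ⬝ᵥ v = 0) → (∀ k, γ k ⬝ᵥ v = 0) → v = 0) : wdg β ≠ 0 := by
  subst hn
  obtain ⟨u, hu⟩ := isUnit_cols hinj
  intro h
  have h1 : Gam (↑u⁻¹ : Matrix _ _ ℂ) *ᵥ wdg β = Pi.single (T0 p r) 1 := by
    rw [wdg_eq β γ, Matrix.mulVec_mulVec, ← Gam_mul, ← hu, Units.inv_mul, Gam_one,
      Matrix.one_mulVec]
  rw [h, Matrix.mulVec_zero] at h1
  simpa using congrFun h1 (T0 p r)

/-- a `p`-form killed by the common kernel of `p` independent covectors is a multiple of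
their wedge product -/
theorem eq_smul_wdg {n : ℕ} (hn : p + r = n) {β : Fin p → Fin n → ℂ} {γ : Fin r → Fin n → ℂ}
    (hinj : ∀ v, (∀ k, β k ⬝ᵥ v = 0) → (∀ k, γ k ⬝ᵥ v = 0) → v = 0) {e : FI n → ℂ}
    (he : ∀ S, S.card ≠ p → e S = 0) (hk : ∀ v, (∀ k, β k ⬝ᵥ v = 0) → iW v *ᵥ e = 0) :
    ∃ c : ℂ, e = c • wdg β := by
  subst hn
  obtain ⟨u, hu⟩ := isUnit_cols hinj
  set e' := Gam (↑u⁻¹ : Matrix _ _ ℂ) *ᵥ e with he'
  have h1 : e = Gam (cols β γ) *ᵥ e' := by
    rw [he', Matrix.mulVec_mulVec, ← Gam_mul, ← hu, Units.mul_inv, Gam_one, Matrix.one_mulVec]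
  have h2 : ∀ j, j ∉ T0 p r → iW (ep j : Fin (p + r) → ℂ) *ᵥ e' = 0 := by
    intro j hj
    have h3 : (cols β γ)ᵀ *ᵥ ((↑u⁻¹ : Matrix _ _ ℂ)ᵀ *ᵥ ep j) = ep j := by
      rw [Matrix.mulVec_mulVec, ← Matrix.transpose_mul, ← hu, Units.inv_mul, Matrix.transpose_one,
        Matrix.one_mulVec]
    have h4 := hk ((↑u⁻¹ : Matrix _ _ ℂ)ᵀ *ᵥ ep j) fun k => by
      rw [← tr_cols_left β γ, h3]
      exact Pi.single_eq_of_ne (fun h => hj (mem_T0.2 ⟨k, h⟩)) _
    rw [he', Matrix.mulVec_mulVec, iW_Gam, ← Matrix.mulVec_mulVec, h4, Matrix.mulVec_zero]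
  have h3 : e' = e' (T0 p r) • Pi.single (T0 p r) 1 := by
    ext S
    by_cases hS : S = T0 p r
    · subst hS; simp
    · rw [Pi.smul_apply, Pi.single_eq_of_ne hS, smul_zero]
      by_cases hc : S.card = p
      · have h4 : ¬ S ⊆ T0 p r := fun h =>
          hS (Finset.eq_of_subset_of_card_le h (by rw [hc, card_T0]))
        obtain ⟨j, hjS, hj⟩ := Finset.not_subset.1 h4
        have h5 := congrFun (h2 j hj) (S.erase j)
        rw [iW_apply, Finset.sum_eq_single j] at h5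
        · simpa [sgn_ne, Finset.insert_erase hjS] using h5
        · intro b _ hb
          simp [hb]
        · simp
      · exact gam_deg _ he S hc
  exact ⟨e' (T0 p r), by
    rw [wdg_eq β γ, ← Matrix.mulVec_smul, ← h3]; exact h1⟩

/-- a vector in the kernel of a `p`-form that vanishes off an index set of a nonzero coefficient
is zero -/
theorem ker_inj {n : ℕ} {e : FI n → ℂ} {S : FI n} (hS : e S ≠ 0) {v : Fin n → ℂ}
    (hv : iW v *ᵥ e = 0) (h0 : ∀ j, j ∉ S → v j = 0) : v = 0 := by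
  ext k
  by_cases hk : k ∈ S
  · have h1 := congrFun hv (S.erase k)
    rw [iW_apply, Finset.sum_eq_single k] at h1
    · simpa [sgn_ne, Finset.insert_erase hk, hS] using h1
    · intro b hb hbk
      have : b ∉ S := fun h => (Finset.mem_compl.1 hb) (Finset.mem_erase.2 ⟨hbk, h⟩)
      simp [h0 b this]
    · simp
  · exact h0 k hk

end Crest.Agent.X261.Frb.Alg
end

-- ▼ part X261/Frb/Cod
section

/-!
# X261/Frb/Cod (helper54): coprime families have zero sets of codimension two: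
through every point off the zero set pass linear discs of fixed size avoiding it.
-/

set_option autoImplicit false

open Set Filter Topology Metric MeasureTheory

namespace Crest.Agent.X261.Frb.Cod

open Crest.Agent.R281.Kd_22

section gen

variable {E : Type*} [NormedAddCommGroup E] [NormedSpace ℂ E]
  {F : Type*} [NormedAddCommGroup F] [NormedSpace ℂ F]

theorem copF_comp {κ : Type*} {f : κ → F → ℂ} {Φ : E → F} {Ψ : F → E} {q : E}
    (hΨ : AnalyticAt ℂ Ψ (Φ q)) (h1 : Ψ (Φ q) = q) (h2 : ∀ᶠ w in 𝓝 (Φ q), Φ (Ψ w) = w)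
    (h : CopF f (Φ q)) : CopF (fun j x => f j (Φ x)) q := by
  intro k hk hkf
  have hk' : AnalyticAt ℂ k (Ψ (Φ q)) := by rwa [h1]
  have h3 := h (fun w => k (Ψ w)) (hk'.comp hΨ) fun j => ?_
  · simpa [h1] using h3
  · obtain ⟨m, hm, he⟩ := hkf j
    have hm' : AnalyticAt ℂ m (Ψ (Φ q)) := by rwa [h1]
    have ht : Tendsto Ψ (𝓝 (Φ q)) (𝓝 q) := by
      have := hΨ.continuousAt.tendsto
      rwa [h1] at this
    refine ⟨fun w => m (Ψ w), hm'.comp hΨ, ?_⟩
    filter_upwards [ht.eventually he, h2] with w hw hw2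
    rw [← hw, hw2]

/-- a direction along which a nonflat analytic function vanishing at `p` has an isolated zero -/
theorem exists_dir {g : F → ℂ} {p : F} (hg : AnalyticAt ℂ g p) (h0 : g p = 0)
    (hne : ¬ ∀ᶠ z in 𝓝 p, g z = 0) :
    ∃ v : F, v ≠ 0 ∧ ∀ᶠ t : ℂ in 𝓝[≠] 0, g (p + t • v) ≠ 0 := by
  obtain ⟨r, hr, hb⟩ := Metric.eventually_nhds_iff_ball.1 hg.eventually_analyticAt
  obtain ⟨z, hz, hz0⟩ : ∃ z ∈ ball p r, g z ≠ 0 := by
    by_contra hc
    push Not at hc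
    exact hne (Metric.eventually_nhds_iff_ball.2 ⟨r, hr, hc⟩)
  have hv : z - p ≠ 0 := fun h => hz0 (by rw [sub_eq_zero.1 h, h0])
  refine ⟨z - p, hv, ?_⟩
  have hl : ∀ t : ℂ, AnalyticAt ℂ (fun t : ℂ => p + t • (z - p)) t := fun t =>
    analyticAt_const.add (analyticAt_id.smul analyticAt_const)
  have han : AnalyticOnNhd ℂ (fun t : ℂ => g (p + t • (z - p))) (closedBall 0 1) := by
    intro t ht
    refine AnalyticAt.comp (g := g) (f := fun t : ℂ => p + t • (z - p)) (hb _ ?_) (hl t)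
    rw [mem_ball, dist_eq_norm, add_sub_cancel_left, norm_smul]
    have h1 : ‖t‖ ≤ 1 := by simpa using ht
    have h2 : ‖z - p‖ < r := by simpa [dist_eq_norm] using hz
    nlinarith [norm_nonneg t, norm_nonneg (z - p)]
  refine ((han 0 (by simp)).eventually_eq_zero_or_eventually_ne_zero).resolve_left fun h => hz0 ?_
  have := han.eqOn_zero_of_preconnected_of_eventuallyEq_zero (convex_closedBall 0 1).isPreconnected
    (by simp) h (x := 1) (by simp)
  simpa using this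

end gen

variable {F : Type} [NormedAddCommGroup F] [NormedSpace ℂ F] [FiniteDimensional ℂ F]

/-- discs through a point `z` off the zero set, close to a given disc -/
theorem disc {κ : Type*} [Fintype κ] {f : κ → F → ℂ} {U : Set F}
    (hf : ∀ j, AnalyticOnNhd ℂ (f j) U) (hcop : ∀ w ∈ U, CopF f w) {z v₀ : F} (hv₀ : v₀ ≠ 0)
    (hU : ∀ t : ℂ, ‖t‖ ≤ 1 → z + t • v₀ ∈ U) (hz : ∃ j, f j z ≠ 0) {j₀ : κ}
    (hj₀ : f j₀ (z + v₀) ≠ 0) {δ : ℝ} (hδ : 0 < δ) :
    ∃ v ∈ ball v₀ δ, ∀ t : ℂ, ‖t‖ ≤ 1 → ∃ j, f j (z + t • v) ≠ 0 := by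
  have hnt : Nontrivial F := nontrivial_of_ne v₀ 0 hv₀
  obtain ⟨m, hm⟩ := Nat.exists_eq_add_of_lt (Module.finrank_pos (R := ℂ) (M := F))
  obtain ⟨e, he⟩ := exists_chart_dir (show Module.finrank ℂ F = m + 1 by omega) hv₀
  set Φ : (Fin m → ℂ) × ℂ → F := fun q => z + q.2 • e (q.1, 1) with hΦ
  have hΦa : ∀ q, AnalyticAt ℂ Φ q := fun q =>
    analyticAt_const.add (analyticAt_snd.smul
      ((e.toContinuousLinearMap.analyticAt _).comp (analyticAt_fst.prod analyticAt_const)))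
  have hΦ0 : ∀ s : ℂ, Φ (0, s) = z + s • v₀ := fun s => by simp [hΦ, he]
  set μ : Measure (Fin m → ℂ) := volume with hμ
  have key : ∀ᶠ u in 𝓝 (0 : Fin m → ℂ) ⊓ ae μ, ∀ s ∈ closedBall (0 : ℂ) 1,
      ∃ j, f j (Φ (u, s)) ≠ 0 := by
    refine Crest.Agent.X261.Loc.An.ev_compact (isCompact_closedBall 0 1) fun s hs => ?_
    have hs1 : ‖s‖ ≤ 1 := by simpa using hs
    have hsU : Φ (0, s) ∈ U := by rw [hΦ0]; exact hU s hs1
    have hfa : ∀ j, AnalyticAt ℂ (fun q => f j (Φ q)) (0, s) := fun j =>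
      (hf j _ hsU).comp (hΦa _)
    by_cases hZ : ∃ j, f j (Φ (0, s)) ≠ 0
    · obtain ⟨j, hj⟩ := hZ
      have h1 := (hfa j).continuousAt.eventually_ne hj
      rw [nhds_prod_eq, eventually_prod_iff] at h1
      obtain ⟨pa, ha, pb, hb, h2⟩ := h1
      exact ⟨{s | pb s}, hb, (ha.mono fun u hu s' hs' => ⟨j, h2 hu hs'⟩).filter_mono inf_le_left⟩
    have hs0 : s ≠ 0 := by
      rintro rfl
      refine hZ ?_
      simpa [hΦ0] using hz
    set Ψ : F → (Fin m → ℂ) × ℂ := fun w =>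
      (((e.symm (w - z)).2)⁻¹ • (e.symm (w - z)).1, (e.symm (w - z)).2) with hΨ
    have hval : e.symm (Φ (0, s) - z) = (0, s) := by
      rw [hΦ0, add_sub_cancel_left, ← he, ← map_smul, e.symm_apply_apply]
      simp
    have hea : ∀ w, AnalyticAt ℂ (fun w => e.symm (w - z)) w := fun w =>
      (e.symm.toContinuousLinearMap.analyticAt _).comp (analyticAt_id.sub analyticAt_const)
    have hΨa : AnalyticAt ℂ Ψ (Φ (0, s)) := by
      refine AnalyticAt.prod (AnalyticAt.smul (AnalyticAt.inv (analyticAt_snd.comp (hea _)) ?_)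
        (analyticAt_fst.comp (hea _))) (analyticAt_snd.comp (hea _))
      change (e.symm (Φ (0, s) - z)).2 ≠ 0
      rw [hval]; exact hs0
    have h1 : Ψ (Φ (0, s)) = (0, s) := by simp only [hΨ, hval, smul_zero]
    have h2 : ∀ᶠ w in 𝓝 (Φ (0, s)), Φ (Ψ w) = w := by
      have h3 : ContinuousAt (fun w => (e.symm (w - z)).2) (Φ (0, s)) :=
        (analyticAt_snd.comp (hea _)).continuousAt
      filter_upwards [h3.eventually_ne (y := 0) (by rw [hval]; exact hs0)] with w hw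
      have h4 : (e.symm (w - z)).2 • ((((e.symm (w - z)).2)⁻¹ • (e.symm (w - z)).1, (1 : ℂ)) :
          (Fin m → ℂ) × ℂ) = e.symm (w - z) := by
        rw [Prod.smul_mk, smul_inv_smul₀ hw, smul_eq_mul, mul_one]
      simp only [hΦ, hΨ]
      rw [← map_smul, h4, e.apply_symm_apply, add_sub_cancel]
    have hc := copF_comp hΨa h1 h2 (hcop _ hsU)
    have hline : AnalyticOnNhd ℂ (fun t : ℂ => f j₀ (z + t • v₀)) (closedBall 0 1) := fun t ht =>
      AnalyticAt.comp (g := f j₀) (f := fun t : ℂ => z + t • v₀) (hf j₀ _ (hU t (by simpa using ht)))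
        (analyticAt_const.add (analyticAt_id.smul analyticAt_const))
    have : (μ.prod (volume : Measure ℂ)).IsAddHaarMeasure := Measure.prod.instIsAddHaarMeasure _ _
    obtain ⟨r, hr, hae⟩ := star_dir (μ.prod (volume : Measure ℂ)) hfa hc (j₀ := j₀)
      (v := ((0 : Fin m → ℂ), (1 : ℂ))) (by simp [Prod.ext_iff]) (by
        intro h
        refine hj₀ ?_
        have h3 : Tendsto (fun t : ℂ => t - s) (𝓝 s) (𝓝 0) := by
          have : Continuous fun t : ℂ => t - s := by fun_prop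
          simpa using this.tendsto s
        have h4 : (fun t : ℂ => f j₀ (z + t • v₀)) =ᶠ[𝓝 s] 0 := by
          filter_upwards [h3.eventually h] with t ht
          rw [← hΦ0]
          simpa using ht
        have := hline.eqOn_zero_of_preconnected_of_eventuallyEq_zero
          (convex_closedBall 0 1).isPreconnected hs h4 (x := 1) (by simp)
        simpa using this)
    set Bad : Set (Fin m → ℂ) := {u | u ∈ ball (0 : Fin m → ℂ) r ∧
      ∃ s' ∈ ball s r, ∀ j, f j (Φ (u, s')) = 0} with hBad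
    have hnull : (μ.prod (volume : Measure ℂ)) (Bad ×ˢ ball s r) = 0 := by
      refine measure_mono_null ?_ (ae_iff.1 hae)
      rintro ⟨u, s''⟩ ⟨⟨hu, s', hs', hall⟩, hs''⟩ hgood
      have h3 : (u, s'') + (s' - s'') • ((0 : Fin m → ℂ), (1 : ℂ)) = (u, s') := by
        ext <;> simp
      obtain ⟨j, hj⟩ := hgood (by rw [← ball_prod_same]; exact ⟨hu, hs''⟩) (s' - s'')
        (by rw [h3, ← ball_prod_same]; exact ⟨hu, hs'⟩)
      rw [h3] at hj
      exact hj (hall j)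
    rw [Measure.prod_prod, mul_eq_zero] at hnull
    have hB : μ Bad = 0 := hnull.resolve_right (measure_ball_pos _ _ hr).ne'
    refine ⟨ball s r, ball_mem_nhds _ hr, ?_⟩
    filter_upwards [mem_inf_of_left (ball_mem_nhds _ hr), mem_inf_of_right (compl_mem_ae_iff.2 hB)]
      with u hu huB s' hs'
    by_contra hcon
    push Not at hcon
    exact huB ⟨hu, s', hs', hcon⟩
  have hc : Tendsto (fun u : Fin m → ℂ => e (u, 1)) (𝓝 0) (𝓝 v₀) := by
    have : Continuous fun u : Fin m → ℂ => e (u, 1) := by fun_prop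
    simpa [he] using this.tendsto 0
  have hne : (𝓝 (0 : Fin m → ℂ) ⊓ ae μ).NeBot := by
    refine ⟨fun h => ?_⟩
    obtain ⟨a, ha, b, hb, hab⟩ := inf_eq_bot_iff.1 h
    have h1 : μ a = 0 := measure_mono_null
      (fun x hx hxb => (hab ▸ (⟨hx, hxb⟩ : x ∈ a ∩ b) : x ∈ (∅ : Set _))) (mem_ae_iff.1 hb)
    exact (Measure.measure_pos_of_mem_nhds μ ha).ne' h1
  obtain ⟨u, hu1, hu2⟩ := (key.and
    ((hc.eventually (ball_mem_nhds v₀ hδ)).filter_mono inf_le_left)).exists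
  exact ⟨e (u, 1), hu2, fun t ht => hu1 t (by simpa using ht)⟩

/-- **codimension two** (chart form) -/
theorem cod {κ : Type*} [Fintype κ] {f : κ → F → ℂ} {U : Set F} (hUo : IsOpen U)
    (hf : ∀ j, AnalyticOnNhd ℂ (f j) U) (hcop : ∀ w ∈ U, CopF f w) {p : F} (hp : p ∈ U)
    {O : Set F} (hO : O ∈ 𝓝 p) : ∃ N ∈ 𝓝 p, ∃ C : Set F, IsCompact C ∧ C ⊆ O ∩ U ∧
      (∀ z ∈ C, ∃ j, f j z ≠ 0) ∧ ∀ z ∈ N, (∃ j, f j z ≠ 0) → ∃ v : F,
        (∀ t : ℂ, ‖t‖ ≤ 1 → z + t • v ∈ O ∩ U ∧ ∃ j, f j (z + t • v) ≠ 0) ∧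
        ∀ t : ℂ, ‖t‖ = 1 → z + t • v ∈ C := by
  have : ProperSpace F := FiniteDimensional.proper ℂ F
  have hOU : O ∩ U ∈ 𝓝 p := inter_mem hO (hUo.mem_nhds hp)
  by_cases hZ : ∃ j, f j p ≠ 0
  · obtain ⟨j, hj⟩ := hZ
    obtain ⟨ρ, hρ, hρs⟩ := Metric.nhds_basis_closedBall.mem_iff.1
      (inter_mem hOU ((hf j p hp).continuousAt.eventually_ne hj))
    refine ⟨closedBall p ρ, closedBall_mem_nhds p hρ, closedBall p ρ, isCompact_closedBall p ρ,
      fun z hz => (hρs hz).1, fun z hz => ⟨j, (hρs hz).2⟩, fun z hz hz' => ⟨0, ?_, ?_⟩⟩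
    · intro t _
      simpa using ⟨(hρs hz).1, hz'⟩
    · intro t _
      simpa using hz
  push Not at hZ
  obtain ⟨j₀, hj₀⟩ : ∃ j, ¬ ∀ᶠ z in 𝓝 p, f j z = 0 := by
    by_contra hc
    push Not at hc
    exact hcop p hp 0 analyticAt_const (fun j => ⟨0, analyticAt_const, by simpa using hc j⟩) rfl
  obtain ⟨v, hv, hev⟩ := exists_dir (hf j₀ p hp) (hZ j₀) hj₀
  have hl : Continuous fun t : ℂ => p + t • v := by fun_prop
  have h1 : ∀ᶠ t : ℂ in 𝓝 0, p + t • v ∈ interior (O ∩ U) :=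
    hl.continuousAt.eventually (by simpa using interior_mem_nhds.2 hOU)
  obtain ⟨ρ, hρ, hρs⟩ := Metric.nhds_basis_closedBall.mem_iff.1
    (h1.and (eventually_nhdsWithin_iff.1 hev))
  set v₀ := (ρ : ℂ) • v with hv₀
  have hρ0 : (ρ : ℂ) ≠ 0 := by exact_mod_cast hρ.ne'
  have hmem : ∀ t : ℂ, ‖t‖ ≤ 1 → t * ρ ∈ closedBall (0 : ℂ) ρ := by
    intro t ht
    rw [mem_closedBall, dist_zero_right, norm_mul, Complex.norm_real, Real.norm_of_nonneg hρ.le]
    nlinarith
  have hl₀ : Continuous fun t : ℂ => p + t • v₀ := by fun_prop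
  set K := (fun t : ℂ => p + t • v₀) '' sphere 0 1 with hK
  set K' := (fun t : ℂ => p + t • v₀) '' closedBall 0 1 with hK'
  have hVo : IsOpen (interior (O ∩ U) ∩ f j₀ ⁻¹' {0}ᶜ) :=
    ((hf j₀).continuousOn.mono (interior_subset.trans inter_subset_right)).isOpen_inter_preimage
      isOpen_interior isOpen_compl_singleton
  obtain ⟨δ₁, hδ₁, hK1⟩ := ((isCompact_sphere 0 1).image hl₀).exists_cthickening_subset_open hVo (by
    rintro _ ⟨t, ht, rfl⟩
    have ht1 : ‖t‖ = 1 := by simpa using ht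
    have h2 := hρs (hmem t ht1.le)
    simp only [hv₀, smul_smul]
    refine ⟨h2.1, h2.2 (mul_ne_zero ?_ hρ0)⟩
    rintro rfl
    simp at ht1)
  obtain ⟨δ₂, hδ₂, hK2⟩ := ((isCompact_closedBall 0 1).image hl₀).exists_cthickening_subset_open
    (isOpen_interior (s := O ∩ U)) (by
    rintro _ ⟨t, ht, rfl⟩
    simp only [hv₀, smul_smul]
    exact (hρs (hmem t (by simpa using ht))).1)
  set δ := min δ₁ δ₂ / 2 with hδ
  have hδ0 : 0 < δ := half_pos (lt_min hδ₁ hδ₂)
  have hclose : ∀ z ∈ ball p δ, ∀ w ∈ ball v₀ δ, ∀ t : ℂ, ‖t‖ ≤ 1 →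
      dist (z + t • w) (p + t • v₀) ≤ min δ₁ δ₂ := by
    intro z hz w hw t ht
    have h2 : z + t • w - (p + t • v₀) = (z - p) + t • (w - v₀) := by rw [smul_sub]; abel
    rw [dist_eq_norm, h2]
    refine (norm_add_le _ _).trans ?_
    rw [norm_smul]
    rw [mem_ball, dist_eq_norm] at hz hw
    nlinarith [norm_nonneg t, norm_nonneg (w - v₀)]
  have hC : ∀ z ∈ ball p δ, ∀ w ∈ ball v₀ δ, ∀ t : ℂ, ‖t‖ = 1 → z + t • w ∈ cthickening δ₁ K :=
    fun z hz w hw t ht => mem_cthickening_of_dist_le _ _ _ _ ⟨t, by simpa using ht, rfl⟩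
      ((hclose z hz w hw t ht.le).trans (min_le_left _ _))
  have hD : ∀ z ∈ ball p δ, ∀ w ∈ ball v₀ δ, ∀ t : ℂ, ‖t‖ ≤ 1 → z + t • w ∈ O ∩ U :=
    fun z hz w hw t ht => interior_subset (hK2 (mem_cthickening_of_dist_le _ _ _ _
      ⟨t, by simpa using ht, rfl⟩ ((hclose z hz w hw t ht).trans (min_le_right _ _))))
  refine ⟨ball p δ, ball_mem_nhds p hδ0, cthickening δ₁ K,
    ((isCompact_sphere 0 1).image hl₀).cthickening, fun z hz => interior_subset (hK1 hz).1,
    fun z hz => ⟨j₀, (hK1 hz).2⟩, fun z hz hz' => ?_⟩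
  obtain ⟨w, hw, hw'⟩ := disc hf hcop (smul_ne_zero hρ0 hv)
    (fun t ht => (hD z hz v₀ (mem_ball_self hδ0) t ht).2) hz' (j₀ := j₀) (by
      have := (hK1 (hC z hz v₀ (mem_ball_self hδ0) 1 (by simp))).2
      rw [one_smul] at this
      exact this) hδ0
  exact ⟨w, fun t ht => ⟨hD z hz w hw t ht, hw' t ht⟩, hC z hz w hw⟩

end Crest.Agent.X261.Frb.Cod
end

-- ▼ part X261/Frb/Main

/-!
# X261/Frb/Main (helper54): `FrobStmt`
-/

set_option autoImplicit false
set_option linter.unusedSectionVars false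

open Set Filter Topology Metric Matrix

namespace Crest.Agent.X261.Frb.Main

open Crest.Agent.R275.Geo Crest.Agent.R275.Core144
open Crest.Agent.R275.OmT75 (dl dj dj_holo dj_congr)
open Crest.Agent.R273.UCov_914 Crest.Agent.R273.Fock_243
open Crest.Agent.R281.ThnM_280 (SThM Crit)
open Crest.Agent.X261.Top Crest.Agent.X261.Frb
open Crest.Agent.R266 (EV)

noncomputable section

variable {n : ℕ}

/-- contraction of a form, as a linear map of the vector -/
def ctr (e : FI n → ℂ) : Cn n →L[ℂ] (FI n → ℂ) :=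
  ∑ a : Fin n, (EuclideanSpace.proj a : Cn n →L[ℂ] ℂ).smulRight (iW (ep a : Fin n → ℂ) *ᵥ e)

theorem ctr_apply (e : FI n → ℂ) (v : Cn n) : ctr e v = iW (fun a => v a) *ᵥ e := by
  rw [iW_eq_sum, Matrix.sum_mulVec]
  simp [ctr, Matrix.smul_mulVec]

/-- `ctr` as a continuous linear map of the form -/
def ctrL : (FI n → ℂ) →L[ℂ] (Cn n →L[ℂ] (FI n → ℂ)) :=
  LinearMap.toContinuousLinearMap
    { toFun := ctr
      map_add' := fun e e' => by
        ext1 v; simp [ctr_apply, Matrix.mulVec_add]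
      map_smul' := fun c e => by
        ext1 v; simp [ctr_apply, Matrix.mulVec_smul] }


theorem finrank_ker_le {p r : ℕ} (hn : p + r = n) {e : FI n → ℂ}
    (he : ∀ S, S.card ≠ p → e S = 0) (h0 : e ≠ 0) :
    Module.finrank ℂ (LinearMap.ker (ctr e : Cn n →ₗ[ℂ] (FI n → ℂ))) ≤ r := by
  obtain ⟨S, hS⟩ := Function.ne_iff.1 h0
  have hc : S.card = p := by
    by_contra h
    exact hS (he S h)
  let φ : LinearMap.ker (ctr e : Cn n →ₗ[ℂ] (FI n → ℂ)) →ₗ[ℂ] ((Sᶜ : Finset (Fin n)) → ℂ) :=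
    { toFun := fun v j => (v : Cn n) j
      map_add' := fun _ _ => rfl
      map_smul' := fun _ _ => rfl }
  have h1 := LinearMap.finrank_le_finrank_of_injective (f := φ) (by
    rw [injective_iff_map_eq_zero]
    intro v hv
    have h2 : ctr e v = 0 := v.2
    rw [ctr_apply] at h2
    have h3 := Alg.ker_inj hS h2 fun j hj => congrFun hv ⟨j, Finset.mem_compl.2 hj⟩
    ext a
    exact congrFun h3 a)
  rw [Module.finrank_fintype_fun_eq_card, Fintype.card_coe, Finset.card_compl, Fintype.card_fin,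
    hc] at h1
  omega

/-- rows of a linear map -/
def row {p : ℕ} (L : Cn n →L[ℂ] Cn p) (k : Fin p) (a : Fin n) : ℂ :=
  L (EuclideanSpace.single a 1) k

theorem row_dot {p : ℕ} (L : Cn n →L[ℂ] Cn p) (k : Fin p) (v : Cn n) :
    row L k ⬝ᵥ (fun a => v a) = L v k := by
  have h : v = ∑ a, v a • (EuclideanSpace.single a (1 : ℂ) : Cn n) := by
    ext b
    simp [Finset.sum_apply, Pi.single_apply]
  conv_rhs => rw [h]
  simp [row, dotProduct, mul_comm]

theorem row_zero_iff {p : ℕ} (L : Cn n →L[ℂ] Cn p) (v : Cn n) :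
    (∀ k, row L k ⬝ᵥ (fun a => v a) = 0) ↔ L v = 0 := by
  simp only [row_dot]
  exact ⟨fun h => by ext k; exact h k, fun h k => by rw [h]; rfl⟩

variable {M : Type} [TopologicalSpace M] {B : Atl n M}

theorem dW_eq {p : ℕ} {i : B.ι} {f : M → Cn p} {y : M}
    (hf : DifferentiableAt ℂ (fun z => f ((B.e i).symm z)) (B.e i y)) :
    dW B i f y = wdg (row (fderiv ℂ (fun z => f ((B.e i).symm z)) (B.e i y))) := by
  unfold dW
  congr 1
  ext k a
  have h1 : HasFDerivAt (fun z => f ((B.e i).symm z) k) _ (B.e i y) :=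
    (EuclideanSpace.proj k : Cn p →L[ℂ] ℂ).hasFDerivAt.comp _ hf.hasFDerivAt
  unfold dl
  rw [dj_holo h1.differentiableAt, h1.fderiv]
  rfl

/-- a surjective linear map has a nonzero top wedge of its rows -/
theorem wdg_row_ne {p r : ℕ} (hn : p + r = n) {L : Cn n →L[ℂ] Cn p} (hL : Function.Surjective L) :
    wdg (row L) ≠ 0 := by
  have h1 : Module.finrank ℂ (LinearMap.ker (L : Cn n →ₗ[ℂ] Cn p)) = r := by
    have h2 := LinearMap.finrank_range_add_finrank_ker (L : Cn n →ₗ[ℂ] Cn p)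
    rw [LinearMap.range_eq_top.2 hL, finrank_top, finrank_euclideanSpace_fin,
      finrank_euclideanSpace_fin] at h2
    omega
  obtain ⟨q, hq⟩ := (LinearMap.ker (L : Cn n →ₗ[ℂ] Cn p)).exists_isCompl
  let ψ : LinearMap.ker (L : Cn n →ₗ[ℂ] Cn p) ≃ₗ[ℂ] Cn r :=
    LinearEquiv.ofFinrankEq _ _ (by rw [h1, finrank_euclideanSpace_fin])
  let Γ : Cn n →L[ℂ] Cn r :=
    LinearMap.toContinuousLinearMap (ψ.toLinearMap ∘ₗ Submodule.projectionOnto _ q hq)
  refine Alg.wdg_ne hn (γ := row Γ) fun v h2 h3 => ?_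
  have h4 := (row_zero_iff L (WithLp.toLp 2 v)).1 h2
  have h5 := (row_zero_iff Γ (WithLp.toLp 2 v)).1 h3
  have h6 : ψ (Submodule.projectionOnto _ q hq
      ((⟨WithLp.toLp 2 v, h4⟩ : LinearMap.ker (L : Cn n →ₗ[ℂ] Cn p)) : Cn n)) = 0 := h5
  rw [Submodule.projectionOnto_apply_left, map_eq_zero_iff _ ψ.injective] at h6
  have h7 : (WithLp.toLp 2 v : Cn n) = 0 := congrArg Subtype.val h6
  ext a
  exact congrArg (fun w : Cn n => w a) h7

variable {G : Type} [Group G] [MulAction G M] {p r : ℕ}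

theorem tube_diff (𝒯 : Tube B G p) {x : M} (hx : x ∈ 𝒯.M0) (i : B.ι) :
    AnalyticOnNhd ℂ (fun z => 𝒯.π x ((B.e i).symm z))
      ((B.e i).target ∩ (B.e i).symm ⁻¹' 𝒯.T x) :=
  Crest.Agent.R266.SCV.analyticOnNhd_of_differentiableOn (isOpen_ti (𝒯.T_opn x hx))
    (𝒯.π_hol x hx i)

/-- on a tube the kernel of the form is the kernel of `dπ` -/
theorem tube_ker (hn : p + r = n) (𝒯 : Tube B G p) {x : M} (hx : x ∈ 𝒯.M0) {i : B.ι} {y : M}
    (hy : y ∈ 𝒯.T x) (hi : y ∈ (B.e i).source) {u : FI n → ℂ} {c : ℂ} (hc : c ≠ 0)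
    (hu : u = c • dW B i (𝒯.π x) y) : u ≠ 0 ∧ ∀ v,
      fderiv ℂ (fun z => 𝒯.π x ((B.e i).symm z)) (B.e i y) v = 0 ↔ ctr u v = 0 := by
  have hd := (tube_diff 𝒯 hx i (B.e i y) ⟨(B.e i).map_source hi, by
    rw [mem_preimage, (B.e i).left_inv hi]; exact hy⟩).differentiableAt
  have hs := Crest.Agent.R281.ThnM_280.surj_of_not_crit (A := B) hy
    (by rw [𝒯.π_subm x hx]; exact notMem_empty y) hi
  have h0 := wdg_row_ne hn hs
  rw [dW_eq hd] at hu
  refine ⟨by rw [hu]; exact smul_ne_zero hc h0, fun v => ?_⟩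
  rw [ctr_apply, hu, Matrix.mulVec_smul, smul_eq_zero, or_iff_right hc, Alg.iW_wdg_iff hn h0,
    row_zero_iff]

/-- swap and scale -/
def sw (r p : ℕ) : (EV r × EV p) ≃L[ℂ] (Cn p × Cn r) :=
  (ContinuousLinearEquiv.prodComm ℂ _ _).trans
    (ContinuousLinearEquiv.smulLeft (Units.mk0 (2 : ℂ) two_ne_zero))

theorem sw_apply (q : EV r × EV p) : sw r p q = ((2 : ℂ) • q.2, (2 : ℂ) • q.1) := rfl

theorem sw_symm (q : Cn p × Cn r) : (sw r p).symm q = ((2 : ℂ)⁻¹ • q.2, (2 : ℂ)⁻¹ • q.1) := by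
  rw [ContinuousLinearEquiv.symm_apply_eq, sw_apply]
  simp [smul_smul]

theorem mem_ball_half {E : Type*} [NormedAddCommGroup E] [NormedSpace ℂ E] {v : E} :
    (2 : ℂ)⁻¹ • v ∈ ball (0 : E) 1 ↔ v ∈ ball (0 : E) 2 := by
  rw [mem_ball_zero_iff, mem_ball_zero_iff, norm_smul, norm_inv, Complex.norm_two]
  constructor <;> intro h <;> linarith

/-- **foliated charts** -/
theorem fch [T2Space M] (hn : p + r = n) (𝒯 : Tube B G p) (ε : B.ι → M → FI n → ℂ) (i : B.ι)
    (hol : ∀ S, HolAt B i univ fun y => ε i y S) (deg : ∀ y S, S.card ≠ p → ε i y S = 0)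
    (gen : ∀ x ∈ 𝒯.M0, ∀ y ∈ 𝒯.T x, y ∈ (B.e i).source →
      ∃ c : ℂ, c ≠ 0 ∧ ε i y = c • dW B i (𝒯.π x) y)
    {x : M} (hx : x ∈ (B.e i).source) (h0 : ε i x ≠ 0) {O : Set M} (hO : O ∈ 𝓝 x) :
    ∃ C : FCh 𝒯 r ε, x ∈ C.φ.source ∧ C.φ x = 0 ∧ C.φ.source ⊆ O := by
  classical
  set b := B.e i with hb
  have hεa : AnalyticOnNhd ℂ (fun z => ε i (b.symm z)) b.target := by
    refine Crest.Agent.R266.SCV.analyticOnNhd_of_differentiableOn b.open_target ?_
    refine differentiableOn_pi.2 fun S => ?_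
    simpa [HolAt] using hol S
  set U : Set (Cn n) := (b.target ∩ b.symm ⁻¹' interior O) ∩ (fun z => ε i (b.symm z)) ⁻¹' {0}ᶜ
    with hU
  have hUo : IsOpen U := (hεa.continuousOn.mono inter_subset_left).isOpen_inter_preimage
    (isOpen_ti isOpen_interior) isOpen_compl_singleton
  have hUt : U ⊆ b.target := fun z hz => hz.1.1
  have hxU : b x ∈ U := ⟨⟨b.map_source hx, by
    rw [mem_preimage, b.left_inv hx]; exact mem_interior_iff_mem_nhds.2 hO⟩, by
    rw [mem_preimage, b.left_inv hx]; exact h0⟩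
  set T : Cn n → Cn n →L[ℂ] (FI n → ℂ) := fun z => ctr (ε i (b.symm z)) with hT
  have hTa : AnalyticOnNhd ℂ T U := fun z hz => (ctrL.analyticAt _).comp (hεa z (hUt hz))
  set D : Set (Cn n) := b.target ∩ b.symm ⁻¹' 𝒯.M0 with hD
  have hUD : U ⊆ closure D := by
    intro z hz
    rw [_root_.mem_closure_iff]
    intro V hV hzV
    have h1 : IsOpen (b.source ∩ b ⁻¹' V) := b.isOpen_inter_preimage hV
    have h2 : Dense 𝒯.M0 := by simpa using 𝒯.thin.dense_compl
    obtain ⟨y, hy, hy0⟩ := h2.inter_open_nonempty _ h1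
      ⟨b.symm z, b.map_target (hUt hz), by rw [mem_preimage, b.right_inv (hUt hz)]; exact hzV⟩
    exact ⟨b y, hy.2, b.map_source hy.1, by rw [mem_preimage, b.left_inv hy.1]; exact hy0⟩
  have hker : ∀ x' ∈ 𝒯.M0, ∀ w ∈ b.target, b.symm w ∈ 𝒯.T x' → ∀ v,
      fderiv ℂ (fun z => 𝒯.π x' (b.symm z)) w v = 0 ↔ T w v = 0 := by
    intro x' hx' w hw hwT
    obtain ⟨c, hc, he⟩ := gen x' hx' _ hwT (b.map_target hw)
    have := (tube_ker hn 𝒯 hx' hwT (b.map_target hw) hc he).2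
    rwa [← hb, b.right_inv hw] at this
  obtain ⟨e, he1, he2, he3, he4, he5, he6, he7⟩ := Core.chart (F := Cn p) hUo hTa hUD
    (r := r) (p := p) (by rw [finrank_euclideanSpace_fin]; omega) (fun z hz => by
      have h1 := hker _ hz.2 z hz.1 (𝒯.T_mem _ hz.2)
      set L := fderiv ℂ (fun w => 𝒯.π (b.symm z) (b.symm w)) z
      have h2 : LinearMap.ker (T z : Cn n →ₗ[ℂ] (FI n → ℂ)) = LinearMap.ker (L : Cn n →ₗ[ℂ] Cn p) := by
        ext v; exact (h1 v).symm
      have h3 := LinearMap.finrank_range_add_finrank_ker (L : Cn n →ₗ[ℂ] Cn p)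
      have h4 := (LinearMap.range (L : Cn n →ₗ[ℂ] Cn p)).finrank_le
      rw [finrank_euclideanSpace_fin] at h3 h4
      rw [h2]
      omega)
    (fun z hz => ⟨fun w => 𝒯.π (b.symm z) (b.symm w),
      tube_diff 𝒯 hz.2.2 i z ⟨hz.2.1, 𝒯.T_mem _ hz.2.2⟩, by
        filter_upwards [(isOpen_ti (A := B) (i := i) (𝒯.T_opn _ hz.2.2)).mem_nhds
          ⟨hz.2.1, 𝒯.T_mem _ hz.2.2⟩] with w hw
        exact hker _ hz.2.2 w hw.1 hw.2⟩)
    hxU (by
      have h1 : T (b x) = ctr (ε i x) := by simp only [hT, b.left_inv hx]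
      rw [h1]
      exact finrank_ker_le hn (deg x) h0)
  set φ : OpenPartialHomeomorph M (Cn p × Cn r) :=
    (b.trans e).trans (sw r p).toHomeomorph.toOpenPartialHomeomorph with hφ
  have hφa : ∀ y, φ y = sw r p (e (b y)) := fun y => rfl
  have hφs : ∀ q, φ.symm q = b.symm (e.symm ((sw r p).symm q)) := fun q => rfl
  have hsrc : ∀ y, y ∈ φ.source ↔ y ∈ b.source ∧ b y ∈ e.source := fun y => by simp [hφ]
  have htgt' : ∀ q, q ∈ φ.target ↔ (sw r p).symm q ∈ e.target := fun q => by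
    simp only [hφ, OpenPartialHomeomorph.trans_target, mem_inter_iff, mem_preimage]
    exact ⟨fun h => h.2.1, fun h => ⟨mem_univ _, h, hUt (he2 (e.map_target h))⟩⟩
  have htgt : φ.target = ball 0 2 ×ˢ ball 0 2 := by
    ext q
    rw [htgt', he4, sw_symm, mem_prod, mem_prod, mem_ball_half, mem_ball_half, and_comm]
  have hφd : ∀ j, DifferentiableOn ℂ (fun z => φ ((B.e j).symm z))
      ((B.e j).target ∩ (B.e j).symm ⁻¹' φ.source) := by
    intro j
    have h1 : DifferentiableOn ℂ (fun z => b ((B.e j).symm z))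
        ((B.e j).target ∩ (B.e j).symm ⁻¹' φ.source) :=
      (B.holo j i).mono fun z hz => ⟨hz.1, ((hsrc _).1 hz.2).1⟩
    exact (sw r p).differentiable.comp_differentiableOn
      (he5.differentiableOn.comp h1 fun z hz => ((hsrc _).1 hz.2).2)
  -- derivatives of `e`
  have hinv : ∀ w ∈ e.source, (∀ v, fderiv ℂ e.symm (e w) (fderiv ℂ e w v) = v) ∧
      ∀ q, fderiv ℂ e w (fderiv ℂ e.symm (e w) q) = q := by
    intro w hw
    have d1 := (he5 w hw).differentiableAt.hasFDerivAt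
    have d2 := (he6 _ (e.map_source hw)).differentiableAt.hasFDerivAt
    have h1 : (e.symm ∘ e) =ᶠ[𝓝 w] id := by
      filter_upwards [e.open_source.mem_nhds hw] with y hy using e.left_inv hy
    have h2 : (e ∘ e.symm) =ᶠ[𝓝 (e w)] id := by
      filter_upwards [e.open_target.mem_nhds (e.map_source hw)] with y hy using e.right_inv hy
    have d3 : HasFDerivAt e (fderiv ℂ e w) (e.symm (e w)) := by rwa [e.left_inv hw]
    have h3 := (d2.comp w d1).unique ((hasFDerivAt_id w).congr_of_eventuallyEq h1)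
    have h4 := (d3.comp (e w) d2).unique ((hasFDerivAt_id (e w)).congr_of_eventuallyEq h2)
    exact ⟨fun v => congrArg (fun L : Cn n →L[ℂ] Cn n => L v) h3,
      fun q => congrArg (fun L : (EV r × EV p) →L[ℂ] (EV r × EV p) => L q) h4⟩
  -- the transverse coordinate in the chart `i`
  set β : Cn n → Cn n →L[ℂ] Cn p := fun w =>
    (2 : ℂ) • (ContinuousLinearMap.snd ℂ (EV r) (EV p)).comp (fderiv ℂ e w) with hβ
  have hdW : ∀ y ∈ φ.source, dW B i (fun y => (φ y).1) y = wdg (row (β (b y))) := by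
    intro y hy
    obtain ⟨hy1, hy2⟩ := (hsrc y).1 hy
    have d1 : HasFDerivAt (fun w => (2 : ℂ) • (e w).2) (β (b y)) (b y) :=
      (hasFDerivAt_snd.comp _ (he5 _ hy2).differentiableAt.hasFDerivAt).const_smul (2 : ℂ)
    have d2 : HasFDerivAt (fun z => (φ (b.symm z)).1) (β (b y)) (b y) := by
      refine d1.congr_of_eventuallyEq ?_
      filter_upwards [b.open_target.mem_nhds (b.map_source hy1)] with z hz
      rw [hφa, b.right_inv hz, sw_apply]
    rw [dW_eq d2.differentiableAt, d2.fderiv]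
  have hβ0 : ∀ w v, β w v = 0 ↔ (fderiv ℂ e w v).2 = 0 := fun w v => by simp [hβ]
  have hinj : ∀ w ∈ e.source, ∀ v : Fin n → ℂ, (∀ k, row (β w) k ⬝ᵥ v = 0) →
      (∀ k, row ((ContinuousLinearMap.fst ℂ (EV r) (EV p)).comp (fderiv ℂ e w)) k ⬝ᵥ v = 0) →
      v = 0 := by
    intro w hw v h1 h2
    have h3 := (hβ0 w _).1 ((row_zero_iff _ (WithLp.toLp 2 v)).1 h1)
    have h4 := (row_zero_iff _ (WithLp.toLp 2 v)).1 h2
    have h5 : fderiv ℂ e w (WithLp.toLp 2 v) = 0 := Prod.ext h4 h3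
    have h6 := (hinv w hw).1 (WithLp.toLp 2 v)
    rw [h5, map_zero] at h6
    ext a
    exact (congrArg (fun w : Cn n => w a) h6).symm
  have hex : ∀ y ∈ φ.source, ∃ c : ℂ, ε i y = c • wdg (row (β (b y))) := by
    intro y hy
    obtain ⟨hy1, hy2⟩ := (hsrc y).1 hy
    refine Alg.eq_smul_wdg hn (hinj _ hy2) (deg y) fun v hv => ?_
    have h1 := (he7 _ hy2 _).1 ((hβ0 _ _).1 ((row_zero_iff _ (WithLp.toLp 2 v)).1 hv))
    simp only [hT, b.left_inv hy1] at h1
    rwa [ctr_apply] at h1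
  choose! c hc using hex
  have hwa : ∀ S, ∀ w ∈ e.source, AnalyticAt ℂ (fun w => wdg (row (β w)) S) w := by
    intro S w hw
    unfold wdg
    by_cases hS : S.card = p
    · simp only [dif_pos hS, Matrix.det_apply', Matrix.of_apply]
      have h1 : AnalyticAt ℂ (fderiv ℂ e) w := he5.fderiv w hw
      have h2 : ∀ k a, AnalyticAt ℂ (fun w => row (β w) k a) w := by
        intro k a
        have h3 : AnalyticAt ℂ (fun w => fderiv ℂ e w (EuclideanSpace.single a 1)) w :=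
          ((ContinuousLinearMap.apply ℂ (EV r × EV p)
            (EuclideanSpace.single a (1 : ℂ) : Cn n)).analyticAt _).comp h1
        exact ((EuclideanSpace.proj k : Cn p →L[ℂ] ℂ).analyticAt _).comp
          (Crest.Agent.R266.analyticAt_const_smul' (2 : ℂ) (analyticAt_snd.comp h3))
      refine Finset.analyticAt_fun_sum _ fun σ _ => analyticAt_const.mul ?_
      exact Finset.analyticAt_fun_prod _ fun k _ => h2 _ _
    · simp only [dif_neg hS]
      exact analyticAt_const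
  refine ⟨{ i := i
            φ := φ
            sub := fun y hy => ((hsrc y).1 hy).1
            tgt := htgt
            hol₁ := fun j => differentiable_fst.comp_differentiableOn (hφd j)
            hol₂ := fun j => differentiable_snd.comp_differentiableOn (hφd j)
            hol' := ?_
            c := c
            c_hol := ?_
            c_ne := ?_
            gen := fun y hy => by rw [hdW y hy]; exact hc y hy
            plq := ?_ }, (hsrc x).2 ⟨hx, he1⟩, ?_, fun y hy => ?_⟩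
  · refine DifferentiableOn.congr (f := fun q => e.symm ((sw r p).symm q)) ?_ fun q hq => ?_
    · exact he6.differentiableOn.comp (sw r p).symm.differentiable.differentiableOn
        fun q hq => (htgt' q).1 hq
    · rw [hφs]
      exact b.right_inv (hUt (he2 (e.map_target ((htgt' q).1 hq))))
  · intro z hz
    have hz1 : b.symm z ∈ φ.source := hz.2
    have hz2 : z ∈ e.source := by
      have := ((hsrc _).1 hz1).2
      rwa [b.right_inv hz.1] at this
    obtain ⟨S, hS⟩ := Function.ne_iff.1 (Alg.wdg_ne hn (hinj z hz2))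
    have h1 : DifferentiableAt ℂ (fun w => ε i (b.symm w) S / wdg (row (β w)) S) z :=
      ((analyticAt_pi_iff.1 (hεa z hz.1) S).div (hwa S z hz2) hS).differentiableAt
    refine (h1.congr_of_eventuallyEq ?_).differentiableWithinAt
    filter_upwards [(isOpen_ti (A := B) (i := i) φ.open_source).mem_nhds hz,
      (hwa S z hz2).continuousAt.eventually_ne hS] with w hw hw0
    have h2 := congrFun (hc _ hw.2) S
    rw [b.right_inv hw.1, Pi.smul_apply, smul_eq_mul] at h2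
    rw [h2, mul_div_cancel_right₀ _ hw0]
  · intro y hy h
    obtain ⟨hy1, hy2⟩ := (hsrc y).1 hy
    have h1 := (he2 hy2).2
    rw [mem_preimage, b.left_inv hy1, hc y hy, h, zero_smul] at h1
    exact h1 rfl
  · intro y hy hy0 z hz hyz
    set t₀ := (e (b y)).2 with ht₀
    have hey : e (b y) ∈ e.target := e.map_source ((hsrc y).1 hy).2
    have hez : e (b z) ∈ e.target := e.map_source ((hsrc z).1 hz).2
    have hzt : (e (b z)).2 = t₀ := by
      rw [hφa, hφa, sw_apply, sw_apply] at hyz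
      exact smul_right_injective _ two_ne_zero hyz
    have hmem : ∀ a ∈ ball (0 : EV r) 1, (a, t₀) ∈ e.target := fun a ha => by
      rw [he4] at hey ⊢; exact ⟨ha, hey.2⟩
    set γ : EV r → M := fun a => b.symm (e.symm (a, t₀)) with hγ
    have hγc : ∀ a ∈ ball (0 : EV r) 1, ContinuousAt γ a := fun a ha =>
      ContinuousAt.comp (g := b.symm) (f := fun a => e.symm (a, t₀))
        (b.continuousAt_symm (hUt (he2 (e.map_target (hmem a ha)))))
        (ContinuousAt.comp (g := e.symm) (f := fun a : EV r => (a, t₀))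
          (e.continuousAt_symm (hmem a ha)) (by fun_prop))
    have hWe : 𝒯.W y = {z | z ∈ 𝒯.T y ∧ 𝒯.π y z = 0} := by
      rw [𝒯.π_fib y hy0 y (𝒯.T_mem y hy0), 𝒯.π_self y hy0]
    have hWc : IsClosed (𝒯.W y) := by
      have := (𝒯.π_prop y hy0 0 one_pos).isClosed
      rw [hWe]
      simpa using this
    have hopen : ∀ a ∈ ball (0 : EV r) 1, γ a ∈ 𝒯.W y → ∀ᶠ a' in 𝓝 a, γ a' ∈ 𝒯.W y := by
      intro a ha haW
      rw [hWe] at haW
      have h1 : ∀ᶠ a' in 𝓝 a, a' ∈ ball (0 : EV r) 1 ∧ γ a' ∈ 𝒯.T y :=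
        (isOpen_ball.eventually_mem ha).and
          ((hγc a ha).eventually ((𝒯.T_opn y hy0).mem_nhds haW.1))
      obtain ⟨ρ, hρ, hρs⟩ := Metric.eventually_nhds_iff_ball.1 h1
      have hder : ∀ a' ∈ ball a ρ, HasFDerivAt (fun a' => 𝒯.π y (γ a')) (0 : EV r →L[ℂ] Cn p) a' := by
        intro a' ha'
        obtain ⟨h2, h3⟩ := hρs a' ha'
        have hw : e.symm (a', t₀) ∈ e.source := e.map_target (hmem a' h2)
        have d1 := (tube_diff 𝒯 hy0 i _ ⟨hUt (he2 hw), h3⟩).differentiableAt.hasFDerivAt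
        have d2 := (he6 _ (hmem a' h2)).differentiableAt.hasFDerivAt
        have d3 : HasFDerivAt (fun a : EV r => (a, t₀)) (ContinuousLinearMap.inl ℂ (EV r) (EV p)) a' :=
          hasFDerivAt_prodMk_left a' t₀
        have d4 := d1.comp a' (d2.comp a' d3)
        refine d4.congr_fderiv ?_
        ext1 v
        refine (hker y hy0 _ (hUt (he2 hw)) h3 _).2 ((he7 _ hw _).1 ?_)
        have h4 := (hinv _ hw).2 (v, 0)
        rw [e.right_inv (hmem a' h2)] at h4
        change (fderiv ℂ e _ (fderiv ℂ e.symm (a', t₀) (v, 0))).2 = 0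
        rw [h4]
      filter_upwards [ball_mem_nhds a hρ] with a' ha'
      rw [hWe]
      refine ⟨(hρs a' ha').2, ?_⟩
      rw [← haW.2]
      exact isOpen_ball.is_const_of_fderiv_eq_zero (𝕜 := ℂ) (convex_ball a ρ).isPreconnected
        (fun w hw => (hder w hw).differentiableAt.differentiableWithinAt)
        (fun w hw => (hder w hw).fderiv) ha' (mem_ball_self hρ)
    have hsub : ball (0 : EV r) 1 ⊆ interior (γ ⁻¹' 𝒯.W y) := by
      refine (convex_ball (0 : EV r) 1).isPreconnected.subset_of_closure_inter_subset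
        isOpen_interior ⟨(e (b y)).1, by rw [he4] at hey; exact hey.1, ?_⟩ ?_
      · refine mem_interior_iff_mem_nhds.2 (hopen _ (by rw [he4] at hey; exact hey.1) ?_)
        simp only [hγ, ht₀, Prod.mk.eta]
        rw [e.left_inv ((hsrc y).1 hy).2, b.left_inv ((hsrc y).1 hy).1]
        exact 𝒯.W_mem y hy0
      · rintro a ⟨ha1, ha2⟩
        refine mem_interior_iff_mem_nhds.2 (hopen a ha2 ?_)
        have h1 := (hγc a ha2).continuousWithinAt.mem_closure_image
          (closure_mono interior_subset ha1)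
        exact hWc.closure_subset (closure_mono (image_preimage_subset _ _) h1)
    have h1 : γ (e (b z)).1 ∈ 𝒯.W y :=
      interior_subset (s := γ ⁻¹' 𝒯.W y) (hsub (by rw [he4] at hez; exact hez.1))
    simp only [hγ, ← hzt, Prod.mk.eta] at h1
    rwa [e.left_inv ((hsrc z).1 hz).2, b.left_inv ((hsrc z).1 hz).1] at h1
  · change sw r p (e (b x)) = 0
    rw [he3, map_zero]
  · obtain ⟨hy1, hy2⟩ := (hsrc y).1 hy
    have h1 := (he2 hy2).1.2
    rw [mem_preimage, b.left_inv hy1] at h1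
    exact interior_subset h1

variable {X : Type} [TopologicalSpace X] {A : Atl n X} {G : Type} [Group G] {D : MonD A G}

theorem mem_Z (F : Fol D p) {y : D.cov G} {i : A.ι} (hi : D.pr y ∈ (A.e i).source) :
    y ∈ F.Z ↔ F.e i (D.pr y) = 0 := by
  refine ⟨fun h => h i, fun h j => ?_⟩
  by_cases hj : D.pr y ∈ (A.e j).source
  · rw [F.tom.tr j i _ ⟨hj, hi⟩, h, Matrix.mulVec_zero, smul_zero]
  · exact F.tom.off j _ hj

theorem e_an (F : Fol D p) (i : A.ι) (S : FI n) :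
    AnalyticOnNhd ℂ (fun z => F.e i ((A.e i).symm z) S) (A.e i).target :=
  Crest.Agent.R266.SCV.analyticOnNhd_of_differentiableOn (A.e i).open_target
    (by simpa [HolAt] using F.tom.hol i S)

theorem isClosed_Z (F : Fol D p) : IsClosed F.Z := by
  rw [← isOpen_compl_iff, isOpen_iff_mem_nhds]
  intro y hy
  obtain ⟨i, hi⟩ := A.cover (D.pr y)
  obtain ⟨S, hS⟩ := Function.ne_iff.1 ((mem_Z F hi).not.1 hy)
  have h1 : ContinuousAt (fun w : D.cov G => F.e i ((A.e i).symm (A.e i (D.pr w))) S) y :=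
    ContinuousAt.comp (g := fun z => F.e i ((A.e i).symm z) S) (f := fun w => A.e i (D.pr w))
      (e_an F i S _ ((A.e i).map_source hi)).continuousAt
      (((A.e i).continuousAt hi).comp D.continuous_pr.continuousAt)
  filter_upwards [h1.eventually_ne (y := 0) (by rw [(A.e i).left_inv hi]; exact hS),
    D.continuous_pr.continuousAt.eventually ((A.e i).open_source.mem_nhds hi)] with w hw hw'
  rw [(A.e i).left_inv hw'] at hw
  exact fun h => hw (congrFun (h i) S)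

theorem Z_sub (hn : p + r = n) (F : Fol D p) : F.Z ⊆ F.T.M0ᶜ := by
  intro y hy hy0
  obtain ⟨q, hq⟩ := (D.atl G).cover y
  obtain ⟨c, hc, he⟩ := F.gen y hy0 q y (F.T.T_mem y hy0) hq
  exact (tube_ker hn F.T hy0 (F.T.T_mem y hy0) hq hc he).1 (hy q.1)

theorem cod2 (hn : p + r = n) (F : Fol D p) : Cod2 (D.atl G) F.Z := by
  refine ⟨isClosed_Z F, F.T.thin.mono (Z_sub hn F), fun q z₀ hz₀ O hO => ?_⟩
  have hZ : ∀ z ∈ (A.e q.1).target, ((D.atl G).e q).symm z ∉ F.Z ↔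
      ∃ S, F.e q.1 ((A.e q.1).symm z) S ≠ 0 := fun z hz => by
    rw [mem_Z F (i := q.1) (y := ((D.atl G).e q).symm z) ((A.e q.1).map_target hz)]
    exact Function.ne_iff
  obtain ⟨N, hN, C, hC1, hC2, hC3, hC4⟩ := Cod.cod (A.e q.1).open_target (e_an F q.1)
    (fun w hw => by
      have := Crest.Agent.R281.Kd_22.copF_of_cop ((A.e q.1).map_target hw)
        (F.cop q.1 _ ((A.e q.1).map_target hw))
      rwa [(A.e q.1).right_inv hw] at this) hz₀ hO
  refine ⟨N ∩ (A.e q.1).target, inter_mem hN ((A.e q.1).open_target.mem_nhds hz₀), C, hC1, hC2,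
    fun z hz => (hZ z (hC2 hz).2).2 (hC3 z hz), fun z hz hz' => ?_⟩
  obtain ⟨v, h1, h2⟩ := hC4 z hz.1 ((hZ z hz.2).1 hz')
  exact ⟨v, fun t ht => ⟨(h1 t ht).1, (hZ _ (h1 t ht).1.2).2 (h1 t ht).2⟩, h2⟩


end

end Crest.Agent.X261.Frb.Main
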